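import Vale.Agent.P123.Reduce

/-!
# Crouzeix's conjecture: the best constant is exactly `2`
-/

open Complex Polynomial
open scoped InnerProductSpace

noncomputable section

namespace Vale.Agent.Results.P123.CrouzeixTwo

universe u

/-- `2` is the least constant `C` such that, for every nonzero complex Hilbert space, every bounded
operator `A` and every polynomial `P`, the norm of `P(A)` is at most `C` times every bound for `|P|`
on the numerical range `{⟪x, A x⟫ : ‖x‖ = 1}` (the inner product of Mathlib is linear in the second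
argument). -/
theorem result :
    IsLeast {C : ℝ | ∀ (H : Type u) [NormedAddCommGroup H] [InnerProductSpace ℂ H] [CompleteSpace H]
      [Nontrivial H] (A : H →L[ℂ] H) (P : ℂ[X]) (M : ℝ),
        (∀ x : H, ‖x‖ = 1 → ‖P.eval ⟪x, A x⟫_ℂ‖ ≤ M) → ‖aeval A P‖ ≤ C * M} 2 := by
  refine ⟨fun H _ _ _ _ A P M hM => Vale.Agent.P123.crouzeix_bound A P hM, fun C hC => ?_⟩
  -- the nilpotent Jordan block
  let ι : Type u := ULift.{u} (Fin 2)
  let i₀ : ι := ⟨0⟩
  let i₁ : ι := ⟨1⟩
  have hne : i₀ ≠ i₁ := fun h => absurd (congrArg ULift.down h) (by decide)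
  let e₀ : EuclideanSpace ℂ ι := EuclideanSpace.single i₀ 1
  let e₁ : EuclideanSpace ℂ ι := EuclideanSpace.single i₁ 1
  let A : EuclideanSpace ℂ ι →L[ℂ] EuclideanSpace ℂ ι := (innerSL ℂ e₁).smulRight e₀
  have hA : ∀ v, A v = v i₁ • e₀ := by
    intro v
    simp [A, e₁, EuclideanSpace.inner_single_left]
  have h := hC (EuclideanSpace ℂ ι) A X (1 / 2) ?_
  · have h1 : ‖A e₁‖ ≤ ‖A‖ * ‖e₁‖ := A.le_opNorm _
    rw [hA] at h1
    simp [e₁, e₀] at h1
    rw [aeval_X] at h
    linarith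
  · intro x hx
    rw [eval_X, hA, inner_smul_right, EuclideanSpace.inner_single_right, one_mul, norm_mul,
      RCLike.norm_conj]
    have hsq : ‖x‖ ^ 2 = ∑ i, ‖x i‖ ^ 2 := EuclideanSpace.norm_sq_eq x
    have hle : ‖x i₀‖ ^ 2 + ‖x i₁‖ ^ 2 ≤ ∑ i, ‖x i‖ ^ 2 := by
      rw [← Finset.sum_pair hne (f := fun i => ‖x i‖ ^ 2)]
      exact Finset.sum_le_univ_sum_of_nonneg fun i => sq_nonneg _
    rw [hx, one_pow] at hsq
    nlinarith [sq_nonneg (‖x i₀‖ - ‖x i₁‖)]

end Vale.Agent.Results.P123.CrouzeixTwo
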